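import Mathlib.Algebra.BigOperators.Group.Finset.Basic
import Mathlib.Analysis.SpecialFunctions.Pow.Real
import Mathlib.Data.Fintype.BigOperators

open Finset

namespace Vale.Agent.P047

/-- The cube of sign vectors of length `n`; the units of the integers are `1` and `-1`. -/
abbrev Cube (n : ℕ) : Type := Fin n → ℤˣ

/-- The Fourier coefficient of `f` at `S`: the mean of `f x * ∏ i ∈ S, x i`
over the uniform distribution on the cube. -/
noncomputable def fourierCoeff {n : ℕ} (f : Cube n → ℝ) (S : Finset (Fin n)) : ℝ :=
  (∑ x : Cube n, f x * ∏ i ∈ S, ((x i : ℤ) : ℝ)) / 2 ^ n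

/-- The degree of `f`: the largest size of a set with nonzero Fourier coefficient. -/
noncomputable def degree {n : ℕ} (f : Cube n → ℝ) : ℕ :=
  (Finset.univ.filter (fun S : Finset (Fin n) => fourierCoeff f S ≠ 0)).sup Finset.card

/-- `f` is Boolean: it takes only the values `1` and `-1`. -/
def IsBoolean {n : ℕ} (f : Cube n → ℝ) : Prop := ∀ x, f x = 1 ∨ f x = -1

/-- The sum of the degree-one Fourier coefficients of `f`. -/
noncomputable def linearSum {n : ℕ} (f : Cube n → ℝ) : ℝ :=
  ∑ i : Fin n, fourierCoeff f {i}

end Vale.Agent.P047
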